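import Vale.Agent.P248.Defs
import Vale.Agent.P248.Bdl.B1
import Vale.Agent.P248.Bdl.B3

namespace Vale.Agent.Results.P248.AllBodies

open Vale.Agent.P248

/-- Four statements on the general Mahler conjecture `P(K) ≥ (n+1)^(n+1) / (n!)^2`:
(1) it holds for every convex body in every dimension up to the factor `e^(-19(n+1)/50)`;
(2) it holds for every convex body in dimension three, with equality exactly for simplices;
(3) a stability estimate in dimension three;
(4) it holds in every dimension for locally anti-blocking bodies in an affine frame, with equality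
exactly for simplices. -/
theorem result :
    (∀ (n : ℕ) (K : Set (EuclideanSpace ℝ (Fin n))), IsConvexBody K →
      ENNReal.ofReal (Real.exp (-(19 / 50 * ((n : ℝ) + 1))) *
        (((n : ℝ) + 1) ^ (n + 1) / (n.factorial : ℝ) ^ 2)) ≤ volumeProduct K) ∧
    (∀ K : Set (EuclideanSpace ℝ (Fin 3)), IsConvexBody K →
      ENNReal.ofReal (((3 : ℝ) + 1) ^ (3 + 1) / (Nat.factorial 3 : ℝ) ^ 2) ≤ volumeProduct K ∧
      (volumeProduct K = ENNReal.ofReal (((3 : ℝ) + 1) ^ (3 + 1) / (Nat.factorial 3 : ℝ) ^ 2) ↔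
        IsSimplex K)) ∧
    (∃ C : ℝ, 0 < C ∧ ∀ (K : Set (EuclideanSpace ℝ (Fin 3))) (ε : ℝ), IsConvexBody K → 0 ≤ ε →
      volumeProduct K ≤
        ENNReal.ofReal (((3 : ℝ) + 1) ^ (3 + 1) / (Nat.factorial 3 : ℝ) ^ 2 * (1 + ε)) →
      ∃ (T : Set (EuclideanSpace ℝ (Fin 3))) (g : EuclideanSpace ℝ (Fin 3)), IsSimplex T ∧
        g ∈ T ∧ T ⊆ K ∧ K ⊆ (fun x => g + (1 + C * ε) • (x - g)) '' T) ∧
    (∀ (n : ℕ) (K : Set (EuclideanSpace ℝ (Fin n))), IsConvexBody K → IsLocallyAntiBlocking K →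
      ENNReal.ofReal (((n : ℝ) + 1) ^ (n + 1) / (n.factorial : ℝ) ^ 2) ≤ volumeProduct K ∧
      (volumeProduct K = ENNReal.ofReal (((n : ℝ) + 1) ^ (n + 1) / (n.factorial : ℝ) ^ 2) ↔
        IsSimplex K)) := by
  have h : ((3 : ℝ) + 1) ^ (3 + 1) / (Nat.factorial 3 : ℝ) ^ 2 = 64 / 9 := by
    norm_num [Nat.factorial]
  rw [h]
  refine ⟨fun n K hK => ?_, fun K hK => mahler_three hK, mahler_three_stable,
    fun n K hK hL => lab_full hK hL⟩
  have h1 := NS.Top.near_sharp hK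
  have e : (2 * (19 / 100) * ((n : ℝ) + 1) : ℝ) = 19 / 50 * ((n : ℝ) + 1) := by ring
  rwa [e] at h1

end Vale.Agent.Results.P248.AllBodies
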