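import Vale.Agent.P248.Defs
import Vale.Agent.P248.Bdl.B1
namespace Vale.Agent.Results.P248.Combined

open Vale.Agent.P248

/-- Three statements on the general Mahler conjecture `P(K) ≥ (n+1)^(n+1) / (n!)^2`:
(1) it holds for every convex body in dimension three, with equality exactly for simplices;
(2) a stability estimate in dimension three;
(3) it holds in every dimension for locally anti-blocking bodies in an affine frame, with equality
exactly for simplices. -/
theorem result :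
    (∀ K : Set (EuclideanSpace ℝ (Fin 3)), IsConvexBody K →
      ENNReal.ofReal (((3 : ℝ) + 1) ^ (3 + 1) / (Nat.factorial 3 : ℝ) ^ 2) ≤ volumeProduct K ∧
      (volumeProduct K = ENNReal.ofReal (((3 : ℝ) + 1) ^ (3 + 1) / (Nat.factorial 3 : ℝ) ^ 2) ↔
        IsSimplex K)) ∧
    (∃ C : ℝ, 0 < C ∧ ∀ (K : Set (EuclideanSpace ℝ (Fin 3))) (ε : ℝ), IsConvexBody K → 0 ≤ ε →
      volumeProduct K ≤
        ENNReal.ofReal (((3 : ℝ) + 1) ^ (3 + 1) / (Nat.factorial 3 : ℝ) ^ 2 * (1 + ε)) →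
      ∃ (T : Set (EuclideanSpace ℝ (Fin 3))) (g : EuclideanSpace ℝ (Fin 3)), IsSimplex T ∧
        g ∈ T ∧ T ⊆ K ∧ K ⊆ (fun x => g + (1 + C * ε) • (x - g)) '' T) ∧
    (∀ (n : ℕ) (K : Set (EuclideanSpace ℝ (Fin n))), IsConvexBody K → IsLocallyAntiBlocking K →
      ENNReal.ofReal (((n : ℝ) + 1) ^ (n + 1) / (n.factorial : ℝ) ^ 2) ≤ volumeProduct K ∧
      (volumeProduct K = ENNReal.ofReal (((n : ℝ) + 1) ^ (n + 1) / (n.factorial : ℝ) ^ 2) ↔
        IsSimplex K)) := by
  have h : ((3 : ℝ) + 1) ^ (3 + 1) / (Nat.factorial 3 : ℝ) ^ 2 = 64 / 9 := by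
    norm_num [Nat.factorial]
  rw [h]
  exact ⟨fun K hK => mahler_three hK, mahler_three_stable, fun n K hK hL => lab_full hK hL⟩

end Vale.Agent.Results.P248.Combined
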