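import Vale.Agent.P248.Defs
import Vale.Agent.P248.Bdl.B1
namespace Vale.Agent.Results.P248.MahlerThree

open Vale.Agent.P248

/-- The general Mahler conjecture in dimension three, with its equality case: every convex body
`K` in `ℝ³` has `P(K) ≥ (3+1)^(3+1) / (3!)^2`, with equality if and only if `K` is a simplex. -/
theorem result (K : Set (EuclideanSpace ℝ (Fin 3))) (hK : IsConvexBody K) :
    ENNReal.ofReal (((3 : ℝ) + 1) ^ (3 + 1) / (Nat.factorial 3 : ℝ) ^ 2) ≤ volumeProduct K ∧
      (volumeProduct K = ENNReal.ofReal (((3 : ℝ) + 1) ^ (3 + 1) / (Nat.factorial 3 : ℝ) ^ 2) ↔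
        IsSimplex K) := by
  have h : ((3 : ℝ) + 1) ^ (3 + 1) / (Nat.factorial 3 : ℝ) ^ 2 = 64 / 9 := by
    norm_num [Nat.factorial]
  rw [h]
  exact mahler_three hK

end Vale.Agent.Results.P248.MahlerThree
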